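import Crest.Agent.X37.Outer.Maths
import Crest.Agent.X37.Gr.Defs
import Crest.Agent.X37.Inner.Defs

/-!
# Row 37 (thin trees): interfaces around the main lemma

`LemmaB`, `GreedyStatement` and `Inner.InnerStatement` are consumed by the outer loop, which
delivers `MainStatement`.
-/

set_option autoImplicit false

namespace Crest.Agent.X37.Outer

open Finset Crest.Agent.Lib.PT Crest.Agent.X37.IO Crest.Agent.X37.Inner

/-- **Lemma B** (geometry). -/
def LemmaB : Prop :=
  ∃ C : ℝ, 0 < C ∧ ∀ (V E : Type) [Fintype V] [DecidableEq V] [Fintype E] [DecidableEq E]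
    (src tgt : E → V) (k : ℕ) (gap K del : ℝ) (p : ℕ), 1 ≤ k → 0 < gap →
    PC src tgt (k + gap) univ → 1 ≤ K → 0 < del → del ≤ 1 → C ≤ del * 2 ^ p →
    8 * k * K ≤ 2 ^ p →
    GeomBound src tgt (Rel src tgt k) K (16 * del + (2 + 12 * C * (p + 4 * K) / del) / gap)

/-- **Step (0)**: the greedy sparse set for given lengths; input `(n, k, es, l)`. -/
def GreedyStatement : Prop :=
  ∃ gr : Un × ℕ × List (ℕ × ℕ) × List ℚ → List Bool, PT gr ∧
    ∀ (n k : ℕ) (es : List (ℕ × ℕ)) (l : List ℚ) (h : Loopless n es), 1 ≤ k →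
      l.length = es.length →
      IsGreedy (srcF h) (tgtF h) k (fun e => l.getD e 0) univ
        (maskF es.length (gr (⟨n⟩, k, es, l)))

/-- **The main lemma**; input `(n, k, r, es)`, output `(F, D)`. -/
def MainStatement : Prop :=
  ∃ (C : ℝ) (main : Un × ℕ × ℕ × List (ℕ × ℕ) → List Bool × List (List ℚ)),
    0 < C ∧ PT main ∧
    ∀ (n k r : ℕ) (es : List (ℕ × ℕ)) (h : Loopless n es), 1 ≤ k → 1 ≤ r → k ≤ r ^ 13 →
      PC (srcF h) (tgtF h) (k + (r : ℝ) ^ 11) univ →
      PC (srcF h) (tgtF h) k (maskF es.length (main (⟨n⟩, k, r, es)).1) ∧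
      Good (srcF h) (tgtF h) (maskF es.length (main (⟨n⟩, k, r, es)).1) (C / (r : ℝ) ^ 3)
        (matR n (main (⟨n⟩, k, r, es)).2)

end Crest.Agent.X37.Outer
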