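import Crest.Agent.X37.Outer.Defs
import Crest.Agent.X37.Gr.Greedy
import Crest.Agent.X37.Solv

/-!
# Row 37 (thin trees): the outer loop and the main lemma
-/

set_option autoImplicit false

namespace Crest.Agent.X37.Outer

open Finset Crest.Agent.Lib.PT Crest.Agent.X37.IO Crest.Agent.X37.Inner
open Crest.CombinatoricsR.Multigraph

/-- the constant of the geometric lemma for `K = r ^ 3`, `del = 1 / r ^ 3`, `gap = r ^ 11` -/
theorem geom_of_lemmaB (h : LemmaB) : ∃ A : ℕ, 1 ≤ A ∧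
    ∀ (V E : Type) [Fintype V] [DecidableEq V] [Fintype E] [DecidableEq E] (src tgt : E → V)
      (k r : ℕ), 1 ≤ k → 1 ≤ r → k ≤ r ^ 13 → PC src tgt (k + (r : ℝ) ^ 11) univ →
      ∃ σ : ℝ, GeomBound src tgt (Rel src tgt k) ((r : ℝ) ^ 3) σ ∧
        4 * (σ + 1 / (r : ℝ) ^ 3) < A / (r : ℝ) ^ 3 := by
  obtain ⟨C, hC, h⟩ := h
  obtain ⟨c, hc⟩ : ∃ c : ℕ, max C 8 < 2 ^ c := pow_unbounded_of_one_lt _ one_lt_two
  have hc1 : C ≤ 2 ^ c := (le_max_left _ _).trans hc.le
  have hc2 : (8 : ℝ) ≤ 2 ^ c := (le_max_right _ _).trans hc.le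
  obtain ⟨A, hA⟩ : ∃ A : ℕ, 4 * (19 + 12 * C * (c + 20)) < A := exists_nat_gt _
  have hA1 : 1 ≤ A := by
    have : (0 : ℝ) < A := lt_of_le_of_lt (by positivity) hA
    exact Nat.cast_pos.1 this
  refine ⟨A, hA1, fun V E _ _ _ _ src tgt k r hk hr hkr hpc => ?_⟩
  have hr1 : (1 : ℝ) ≤ r := by exact_mod_cast hr
  have hr0 : (0 : ℝ) < r := by linarith
  have hr3 : (1 : ℝ) ≤ (r : ℝ) ^ 3 := one_le_pow₀ hr1
  have hr2 : (r : ℝ) ≤ 2 ^ r := by exact_mod_cast (Nat.lt_two_pow_self (n := r)).le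
  have h16 : (r : ℝ) ^ 16 ≤ 2 ^ (16 * r) := by
    rw [mul_comm, pow_mul]
    exact pow_le_pow_left₀ hr0.le hr2 16
  have hkr' : (k : ℝ) ≤ (r : ℝ) ^ 13 := by exact_mod_cast hkr
  refine ⟨_, h V E src tgt k ((r : ℝ) ^ 11) ((r : ℝ) ^ 3) (1 / (r : ℝ) ^ 3) (c + 16 * r) hk
    (by positivity) hpc hr3 (by positivity) (div_le_one_of_le₀ hr3 (by positivity)) ?_ ?_, ?_⟩
  · rw [pow_add, one_div, inv_mul_eq_div, le_div_iff₀ (by positivity)]
    refine mul_le_mul hc1 (le_trans ?_ h16) (by positivity) (by positivity)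
    exact pow_le_pow_right₀ hr1 (by norm_num)
  · rw [pow_add, mul_assoc]
    refine mul_le_mul hc2 (le_trans ?_ h16) (by positivity) (by positivity)
    calc (k : ℝ) * (r : ℝ) ^ 3 ≤ (r : ℝ) ^ 13 * (r : ℝ) ^ 3 := by gcongr
      _ = (r : ℝ) ^ 16 := by ring
  · have e1 : ((c + 16 * r : ℕ) : ℝ) + 4 * (r : ℝ) ^ 3 ≤ (c + 20) * (r : ℝ) ^ 3 := by
      have h1 : (r : ℝ) ≤ (r : ℝ) ^ 3 := le_self_pow₀ hr1 (by norm_num)
      have h2 : (c : ℝ) ≤ c * (r : ℝ) ^ 3 := le_mul_of_one_le_right (by positivity) hr3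
      push_cast
      linarith
    have e2 : (2 + 12 * C * (((c + 16 * r : ℕ) : ℝ) + 4 * (r : ℝ) ^ 3) / (1 / (r : ℝ) ^ 3)) /
        (r : ℝ) ^ 11 ≤ (2 + 12 * C * (c + 20)) / (r : ℝ) ^ 3 := by
      rw [div_le_div_iff₀ (by positivity) (by positivity), div_div_eq_mul_div, div_one]
      have h8 : (1 : ℝ) ≤ (r : ℝ) ^ 8 := one_le_pow₀ hr1
      have h68 : (r : ℝ) ^ 3 * (r : ℝ) ^ 3 ≤ (r : ℝ) ^ 8 := by
        rw [← pow_add]
        exact pow_le_pow_right₀ hr1 (by norm_num)
      have h3 : 12 * C * (((c + 16 * r : ℕ) : ℝ) + 4 * (r : ℝ) ^ 3) * (r : ℝ) ^ 3 ≤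
          12 * C * (c + 20) * (r : ℝ) ^ 8 := by
        calc _ ≤ 12 * C * ((c + 20) * (r : ℝ) ^ 3) * (r : ℝ) ^ 3 := by gcongr
          _ = 12 * C * (c + 20) * ((r : ℝ) ^ 3 * (r : ℝ) ^ 3) := by ring
          _ ≤ _ := by gcongr
      calc _ ≤ ((2 + 12 * C * (c + 20)) * (r : ℝ) ^ 8) * (r : ℝ) ^ 3 := by
            gcongr
            linarith
        _ = _ := by ring
    have e3 : 4 * (19 + 12 * C * (c + 20)) / (r : ℝ) ^ 3 < A / (r : ℝ) ^ 3 := by gcongr
    refine lt_of_le_of_lt ?_ e3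
    have e4 : 4 * (19 + 12 * C * (c + 20)) / (r : ℝ) ^ 3 = 4 * (16 * (1 / (r : ℝ) ^ 3) +
        (2 + 12 * C * (c + 20)) / (r : ℝ) ^ 3 + 1 / (r : ℝ) ^ 3) := by ring
    rw [e4]
    linarith

theorem cert_of {V E : Type} [Fintype V] [DecidableEq V] [Fintype E] {src tgt : E → V}
    {F : Finset E} {sig : ℝ} {l : E → ℕ} (h : Inner.Cert src tgt F sig l) :
    Cert src tgt F (fun e => (l e : ℝ)) (sig * Fintype.card E) := by
  obtain ⟨-, d, X, h1, h2, h3, h4, h5, h6⟩ := h
  exact ⟨d, X, ⟨h1, h2, h3⟩, h4, h5, h6⟩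

theorem good_default {n : ℕ} (hn : n ≤ 1) {E : Type} [Fintype E] [IsEmpty E]
    (src tgt : E → Fin n) (F : Finset E) (ρ : ℝ) : Good src tgt F ρ (matR n [[1]]) := by
  have : Subsingleton (Fin n) := Fin.subsingleton_iff_le_one.2 hn
  have e : matR n [[1]] = 1 := by
    ext i j
    have hi : (i : ℕ) = 0 := by omega
    have hj : (j : ℕ) = 0 := by omega
    rw [Subsingleton.elim j i]
    simp [matR, hi]
  refine ⟨e ▸ Matrix.PosDef.one, fun S => ?_, fun e => isEmptyElim e⟩
  by_cases hS : S = ∅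
  · refine ⟨0, le_of_eq_of_le ?_ (Nat.cast_nonneg _)⟩
    have : ind S 0 = 0 := by
      funext v
      simp [ind, hS]
    simp [this, qf]
  · refine ⟨1, le_of_eq_of_le ?_ (Nat.cast_nonneg _)⟩
    obtain ⟨u, hu⟩ := Finset.nonempty_iff_ne_empty.2 hS
    have : ind S 1 = 0 := by
      funext v
      simp [ind, Subsingleton.elim v u, hu]
    simp [this, qf]

/-- **The main lemma** from its three parts. -/
theorem main_of (hB : LemmaB) (hG : GreedyStatement) (hI : InnerStatement) : MainStatement := by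
  classical
  obtain ⟨A, hA, hB⟩ := geom_of_lemmaB hB
  obtain ⟨gr, hgr, hG⟩ := hG
  obtain ⟨inner, hinner, hI⟩ := hI
  let Fm : Un × ℕ × ℕ × List (ℕ × ℕ) → List ℕ → List Bool := fun a L =>
    gr (a.1, a.2.1, a.2.2.2, L.map fun x : ℕ => (x : ℚ))
  let out : Un × ℕ × ℕ × List (ℕ × ℕ) → List ℕ → Bool × List (List ℚ) × List ℕ := fun a L =>
    inner (a.1, a.2.2.2, Fm a L, (A : ℚ) / ((a.2.2.1 * a.2.2.1 * a.2.2.1 : ℕ) : ℚ))
  let step : Un × ℕ × ℕ × List (ℕ × ℕ) → List ℕ → List ℕ := fun a L =>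
    bif (out a L).1 then L else List.zipWith (fun x y => x + y) L (out a L).2.2
  have hFm : PT fun p : (Un × ℕ × ℕ × List (ℕ × ℕ)) × List ℕ => Fm p.1 p.2 :=
    hgr.comp (by fun_prop)
  have hout : PT fun p : (Un × ℕ × ℕ × List (ℕ × ℕ)) × List ℕ => out p.1 p.2 :=
    hinner.comp (PT.pair (by fun_prop) (PT.pair (by fun_prop) (PT.pair hFm (by fun_prop))))
  have hstep : PT fun p : (Un × ℕ × ℕ × List (ℕ × ℕ)) × List ℕ => step p.1 p.2 :=
    PT.cond hout.fst (by fun_prop) (PT.zipWith (f := fun _ x y => x + y) (by fun_prop)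
      hout.snd.snd (by fun_prop))
  obtain ⟨Lf, hLf, hLf'⟩ := exists_pt_iterate (α := Un × ℕ × ℕ × List (ℕ × ℕ))
    (n := fun a => a.2.2.2.length) (s := fun a => List.replicate a.2.2.2.length (2 * a.2.2.2.length))
    (f := step) (by fun_prop) (by fun_prop) (by fun_prop) hstep
    (B := fun a => a.2.2.2.length * (4 * (2 * a.2.2.2.length * (a.2.2.2.length + 1)) + 1 + 1) + 1)
    (by fun_prop)
  refine ⟨35 * A, fun a => if a.2.2.2 = [] then ([], [[1]]) else (Fm a (Lf a), (out a (Lf a)).2.1),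
    by positivity, ?_, fun n k r es h hk hr hkr hpc => ?_⟩
  · refine PT.ite (by fun_prop) (PT.const _) (PT.pair ?_ ?_)
    · exact hFm.comp (PT.pair PT.id hLf)
    · exact (hout.comp (PT.pair PT.id hLf)).snd.fst
  have hk0 : (0 : ℝ) < k := by exact_mod_cast hk
  have hr0 : (0 : ℝ) < r := by exact_mod_cast hr
  by_cases hes : es = []
  · subst hes
    have hn : n ≤ 1 := by
      by_contra hn
      obtain ⟨e, -, -⟩ := hpc.exists_cut (by positivity) (S := {⟨0, by omega⟩})
        (mem_singleton_self _) (v := ⟨1, by omega⟩) (by simp [Fin.ext_iff])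
      exact e.elim0
    have : IsEmpty (Fin ([] : List (ℕ × ℕ)).length) := Fin.isEmpty'
    simp only [if_true]
    refine ⟨fun f => ?_, good_default hn _ _ _ _⟩
    have h1 : ((univ.image f).card : ℝ) ≤ 1 := by
      have := (card_image_le (s := (univ : Finset (Fin n))) (f := f))
      rw [card_univ, Fintype.card_fin] at this
      exact_mod_cast this.trans hn
    exact le_trans (mul_nonpos_of_nonneg_of_nonpos hk0.le (by linarith)) (Nat.cast_nonneg _)
  simp only [if_neg hes]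
  set a : Un × ℕ × ℕ × List (ℕ × ℕ) := (⟨n⟩, k, r, es) with ha
  set m := es.length with hm
  have hm0 : 0 < m := List.length_pos_iff.2 hes
  have hne : Nonempty (Fin n) := ⟨srcF h ⟨0, hm0⟩⟩
  have hpck : PC (srcF h) (tgtF h) k univ := hpc.of_le (le_add_of_nonneg_right (by positivity))
  have hconn : Conn (srcF h) (tgtF h) := by
    intro S hS hS'
    obtain ⟨u, hu⟩ := hS
    obtain ⟨v, hv⟩ : ∃ v, v ∉ S := by
      by_contra hv
      exact hS' (eq_univ_iff_forall.2 fun v => not_not.1 fun h => hv ⟨v, h⟩)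
    obtain ⟨e, -, he⟩ := hpck.exists_cut hk0 hu hv
    exact ⟨e, mem_filter.2 ⟨mem_univ _, he⟩⟩
  set sig : ℚ := (A : ℚ) / ((r * r * r : ℕ) : ℚ) with hsig
  have hsig0 : 0 < sig := by positivity
  have hsigR : (sig : ℝ) = A / (r : ℝ) ^ 3 := by
    rw [hsig]
    push_cast
    ring
  -- one round
  have hgreedy : ∀ L : List ℕ, L.length = m →
      IsGreedy (srcF h) (tgtF h) k (fun e => ((L.getD e 0 : ℕ) : ℝ)) univ (maskF m (Fm a L)) := by
    intro L hL
    refine (hG n k es (L.map fun x : ℕ => (x : ℚ)) h hk (by simpa using hL)).congr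
      fun e _ f _ hef => ?_
    have e1 : ∀ i : ℕ, (L.map fun x : ℕ => (x : ℚ)).getD i 0 = ((L.getD i 0 : ℕ) : ℚ) := fun i => by
      simpa using List.getD_map (f := fun x : ℕ => (x : ℚ)) (l := L) (d := 0) (n := i)
    rw [e1, e1] at hef
    exact_mod_cast hef
  have hround : ∀ L : List ℕ, L.length = m →
      ((out a L).1 = true → Good (srcF h) (tgtF h) (maskF m (Fm a L)) (35 * sig)
        (matR n (out a L).2.1)) ∧
      ((out a L).1 = false → (out a L).2.2.length = m ∧
        Inner.Cert (srcF h) (tgtF h) (maskF m (Fm a L)) sig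
          (fun e => (out a L).2.2.getD e 0)) := by
    intro L hL
    refine hI n es (Fm a L) sig h hsig0 hconn ?_
    obtain ⟨e, he, -⟩ := ((hgreedy L hL).pc hpck).exists_cut hk0 (S := {srcF h ⟨0, hm0⟩})
      (mem_singleton_self _) (v := tgtF h ⟨0, hm0⟩)
      (by simpa using (srcF_ne_tgtF h ⟨0, hm0⟩).symm)
    exact ⟨e, he⟩
  set L : ℕ → List ℕ := fun i => (step a)^[i] (List.replicate m (2 * m)) with hL
  have hLs : ∀ i, L (i + 1) = step a (L i) := fun i => Function.iterate_succ_apply' _ _ _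
  have hadd : ∀ L : List ℕ, L.length = m → (out a L).1 = false →
      (step a L).length = m ∧ ∀ e : Fin m, (step a L).getD e 0 =
        L.getD e 0 + (out a L).2.2.getD e 0 ∧ (out a L).2.2.getD e 0 ≤ 2 * m := by
    intro L hL hf
    obtain ⟨h1, h2⟩ := (hround L hL).2 hf
    have e1 : step a L = List.zipWith (fun x y => x + y) L (out a L).2.2 := by
      simp only [step, hf, cond_false]
    refine ⟨by rw [e1, List.length_zipWith, hL, h1, min_self], fun e => ⟨?_, ?_⟩⟩
    · rw [e1, List.getD_eq_getElem _ _ (by rw [List.length_zipWith, hL, h1, min_self]; exact e.2),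
        List.getD_eq_getElem _ _ (by rw [hL]; exact e.2),
        List.getD_eq_getElem _ _ (by rw [h1]; exact e.2), List.getElem_zipWith]
    · have h3 := h2.1
      rw [Fintype.card_fin] at h3
      exact le_trans (single_le_sum (f := fun e : Fin m => (out a L).2.2.getD e 0)
        (fun _ _ => Nat.zero_le _) (mem_univ e)) h3
  have hstay : ∀ L : List ℕ, (out a L).1 = true → step a L = L := fun L ht => by
    simp only [step, ht, cond_true]
  have hinv : ∀ i, (L i).length = m ∧ ∀ e : Fin m, (L i).getD e 0 ≤ 2 * m * (i + 1) := by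
    intro i
    induction i with
    | zero =>
      refine ⟨by simp [hL], fun e => ?_⟩
      simp [hL, List.getD_eq_getElem?_getD]
    | succ i ih =>
      rw [hLs]
      cases hf : (out a (L i)).1
      · obtain ⟨h1, h2⟩ := hadd _ ih.1 hf
        refine ⟨h1, fun e => ?_⟩
        rw [(h2 e).1, Nat.mul_succ]
        exact Nat.add_le_add (ih.2 e) (h2 e).2
      · rw [hstay _ hf]
        exact ⟨ih.1, fun e => (ih.2 e).trans (Nat.mul_le_mul_left _ (Nat.le_succ _))⟩
  have hLfa : Lf a = L m := by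
    refine hLf' a fun i hi => ?_
    change sz (L i) ≤ m * (4 * (2 * m * (m + 1)) + 1 + 1) + 1
    refine (sz_list_le (B := 4 * (2 * m * (m + 1)) + 1) fun x hx => ?_).trans
      (by rw [(hinv i).1])
    obtain ⟨j, hj, rfl⟩ := List.getElem_of_mem hx
    have h1 := (hinv i).2 ⟨j, (hinv i).1 ▸ hj⟩
    rw [List.getD_eq_getElem _ _ hj] at h1
    have h2 : 2 * m * (i + 1) ≤ 2 * m * (m + 1) := Nat.mul_le_mul_left _ (Nat.succ_le_succ hi)
    have := sz_nat_le_self (L i)[j]
    omega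
  -- the loop stops
  have hfin : (out a (L m)).1 = true := by
    by_contra hcon
    have hall : ∀ i ≤ m, (out a (L i)).1 = false := by
      intro i hi
      by_contra hi'
      have hi'' : (out a (L i)).1 = true := by simpa using hi'
      have : ∀ j, L (i + j) = L i := by
        intro j
        induction j with
        | zero => rfl
        | succ j ih => rw [← Nat.add_assoc, hLs, ih, hstay _ hi'']
      have h1 := this (m - i)
      rw [Nat.add_sub_cancel' hi] at h1
      exact hcon (h1 ▸ hi'')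
    obtain ⟨σ, hσ, hlt⟩ := hB (Fin n) (Fin m) (srcF h) (tgtF h) k r hk hr hkr hpc
    have hdiff : ∀ i < m, ∀ e : Fin m, (((L (i + 1)).getD e 0 : ℕ) : ℝ) =
        ((L i).getD e 0 : ℕ) + ((out a (L i)).2.2.getD e 0 : ℕ) := fun i hi e => by
      rw [hLs, ((hadd _ (hinv i).1 (hall i hi.le)).2 e).1, Nat.cast_add]
    have hm1 : (1 : ℝ) ≤ m := by exact_mod_cast hm0
    have key := rounds_le (b := 2 * m) (val := sig * m) hσ (by positivity)
      (fun _ _ _ _ hs hR => hR.mono hs) (by linarith) m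
      (fun i e => (((L i).getD e 0 : ℕ) : ℝ)) (fun i => maskF m (Fm a (L i)))
      (fun e => by simp [hL, List.getD_eq_getElem?_getD])
      (fun i hi e => by rw [hdiff i hi e]; exact le_add_of_nonneg_right (Nat.cast_nonneg _))
      (fun i hi e => by
        rw [hdiff i hi e]
        have := ((hadd _ (hinv i).1 (hall i hi.le)).2 e).2
        have h2 : (((out a (L i)).2.2.getD e 0 : ℕ) : ℝ) ≤ 2 * m := by exact_mod_cast this
        linarith)
      (fun i hi => by
        have := cert_of ((hround _ (hinv i).1).2 (hall i hi.le)).2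
        rw [Fintype.card_fin] at this
        exact this.mono (fun e => by rw [hdiff i hi e]; linarith) le_rfl)
      (fun i _ e he s hs => (hgreedy _ (hinv i).1).not_rel_filter he hs)
    have hsum : ∀ i ≤ m, ∑ e : Fin m, (((L i).getD e 0 : ℕ) : ℝ) ≤ 2 * m * (m + i) := by
      intro i hi
      induction i with
      | zero => simp [hL, List.getD_eq_getElem?_getD, mul_comm]
      | succ i ih =>
        simp only [hdiff i hi, sum_add_distrib]
        have h1 := ((hround _ (hinv i).1).2 (hall i (Nat.le_of_succ_le hi))).2.1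
        rw [Fintype.card_fin] at h1
        have h2 : ∑ e : Fin m, (((out a (L i)).2.2.getD e 0 : ℕ) : ℝ) ≤ 2 * m := by
          exact_mod_cast h1
        have := ih (Nat.le_of_succ_le hi)
        push_cast
        linarith
    have hpos : 0 < (m : ℝ) * (sig * m) := by
      have : (0 : ℝ) < sig := by exact_mod_cast hsig0
      positivity
    have hs0 : 0 ≤ ∑ e : Fin m, (((L m).getD e 0 : ℕ) : ℝ) :=
      sum_nonneg fun _ _ => Nat.cast_nonneg _
    have hσ0 : 0 ≤ σ + 1 / (r : ℝ) ^ 3 := by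
      by_contra hneg
      have := mul_nonpos_of_nonpos_of_nonneg (not_le.1 hneg).le hs0
      linarith
    have h5 := key.trans (mul_le_mul_of_nonneg_left (hsum m le_rfl) hσ0)
    rw [← hsigR] at hlt
    have h6 : (m : ℝ) * m * (4 * (σ + 1 / (r : ℝ) ^ 3)) < m * m * sig :=
      mul_lt_mul_of_pos_left hlt (by positivity)
    linarith
  rw [hLfa]
  refine ⟨(hgreedy _ (hinv m).1).pc hpck, ?_⟩
  have := (hround _ (hinv m).1).1 hfin
  rwa [hsigR, ← mul_div_assoc] at this

end Crest.Agent.X37.Outer
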