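import Mathlib

/-!
# Row 37 (thin trees): the outer loop of the main lemma, abstract part

A sequence of certificates, each for the greedy set of the current lengths, adds up to one large
configuration which contradicts the geometric lemma.
-/

set_option autoImplicit false

namespace Crest.Agent.X37.Outer

open Finset

variable {V E : Type} [Fintype E]

/-- a pseudometric -/
structure PM (d : V → V → ℝ) : Prop where
  self : ∀ u, d u u = 0
  symm : ∀ u v, d u v = d v u
  tri : ∀ u v w, d u w ≤ d u v + d v w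

/-- a certificate of value `val` for the set `F` and the lengths `l` -/
def Cert (src tgt : E → V) (F : Finset E) (l : E → ℝ) (val : ℝ) : Prop :=
  ∃ (d : V → V → ℝ) (X : V → E → ℝ), PM d ∧ (∀ e, d (src e) (tgt e) ≤ l e) ∧
    (∀ u v, ∑ f, (X u f - X v f) ^ 2 ≤ d u v) ∧
    val ≤ ∑ e ∈ F, (X (src e) e - X (tgt e) e) ^ 2

theorem Cert.mono {src tgt : E → V} {F : Finset E} {l l' : E → ℝ} {val val' : ℝ}
    (h : Cert src tgt F l val) (hl : ∀ e, l e ≤ l' e) (hv : val' ≤ val) :
    Cert src tgt F l' val' := by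
  obtain ⟨d, X, h1, h2, h3, h4⟩ := h
  exact ⟨d, X, h1, fun e => (h2 e).trans (hl e), h3, hv.trans h4⟩

theorem Cert.smul {src tgt : E → V} {F : Finset E} {l : E → ℝ} {val : ℝ}
    (h : Cert src tgt F l val) {c : ℝ} (hc : 0 ≤ c) :
    Cert src tgt F (fun e => c * l e) (c * val) := by
  obtain ⟨d, X, h1, h2, h3, h4⟩ := h
  have hs : ∀ a b : ℝ, (Real.sqrt c * a - Real.sqrt c * b) ^ 2 = c * (a - b) ^ 2 := fun a b => by
    rw [← mul_sub, mul_pow, Real.sq_sqrt hc]
  refine ⟨fun u v => c * d u v, fun u f => Real.sqrt c * X u f,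
    ⟨fun u => by simp [h1.self], fun u v => by rw [h1.symm], fun u v w => ?_⟩,
    fun e => mul_le_mul_of_nonneg_left (h2 e) hc, fun u v => ?_, ?_⟩
  · rw [← mul_add]
    exact mul_le_mul_of_nonneg_left (h1.tri u v w) hc
  · simp only [hs, ← mul_sum]
    exact mul_le_mul_of_nonneg_left (h3 u v) hc
  · simp only [hs, ← mul_sum]
    exact mul_le_mul_of_nonneg_left h4 hc

/-- The geometric lemma for one graph, with the constant `σ` : `R A u v` says that `u` and `v`
lie in one solid part of the edge set `A`. -/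
def GeomBound (src tgt : E → V) (R : Finset E → V → V → Prop) (K σ : ℝ) : Prop :=
  ∀ (I : Type) [Fintype I] (l : E → ℝ) (d : V → V → ℝ) (X : V → I → ℝ) (u : E → I → ℝ)
    (good : Finset E), (∀ e, 1 ≤ l e) → PM d → (∀ e, d (src e) (tgt e) ≤ l e) →
    (∀ a b, ∑ i, (X a i - X b i) ^ 2 ≤ d a b) → (∀ e, ∑ i, u e i ^ 2 ≤ 1) →
    (∀ e f, e ≠ f → ∀ i, u e i * u f i = 0) →
    (∀ e ∈ good, ∀ s : ℝ, s * K < l e → ¬ R (univ.filter fun f => l f ≤ s) (src e) (tgt e)) →
    ∑ e ∈ good, (∑ i, u e i * (X (src e) i - X (tgt e) i)) ^ 2 ≤ σ * ∑ e, l e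

/-- **The outer loop stops.** -/
theorem rounds_le {src tgt : E → V} {R : Finset E → V → V → Prop} {K σ b val : ℝ}
    (hB : GeomBound src tgt R K σ) (hK : 0 < K)
    (hR : ∀ A A' u v, A ⊆ A' → R A u v → R A' u v) (hb : 1 ≤ b)
    (T : ℕ) (L : ℕ → E → ℝ) (F : ℕ → Finset E) (h0 : ∀ e, L 0 e = b)
    (hmono : ∀ i < T, ∀ e, L i e ≤ L (i + 1) e) (hstep : ∀ i < T, ∀ e, L (i + 1) e ≤ L i e + b)
    (hC : ∀ i < T, Cert src tgt (F i) (fun e => L (i + 1) e - L i e) val)
    (hF : ∀ i < T, ∀ e ∈ F i, ∀ s : ℝ, s < L i e →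
      ¬ R (univ.filter fun f => L i f ≤ s) (src e) (tgt e)) :
    T * val ≤ (σ + 1 / K) * ∑ e, L T e := by
  classical
  choose! d X hd hdl hX hval using hC
  -- monotonicity of the lengths
  have hle : ∀ j ≤ T, ∀ i ≤ j, ∀ e, L i e ≤ L j e := by
    intro j hj i hi e
    induction hi with
    | refl => exact le_rfl
    | step hi ih => exact (ih (Nat.le_of_succ_le hj)).trans (hmono _ hj e)
  have hL1 : ∀ e, 1 ≤ L T e := fun e => hb.trans ((h0 e).symm.le.trans (hle T le_rfl 0 T.zero_le e))
  -- the pieces
  set z : ℕ → E → ℝ := fun i e => if e ∈ F i then X i (src e) e - X i (tgt e) e else 0 with hz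
  set a : E → ℝ := fun e => ∑ i : Fin T, z i e ^ 2 with ha
  have ha0 : ∀ e, 0 ≤ a e := fun e => sum_nonneg fun i _ => sq_nonneg _
  have hz_le : ∀ i < T, ∀ e, z i e ^ 2 ≤ L (i + 1) e - L i e := by
    intro i hi e
    by_cases he : e ∈ F i
    · simp only [hz, if_pos he]
      refine le_trans ?_ ((hX i hi (src e) (tgt e)).trans (hdl i hi e))
      exact single_le_sum (f := fun f => (X i (src e) f - X i (tgt e) f) ^ 2)
        (fun _ _ => sq_nonneg _) (mem_univ e)
    · simp only [hz, if_neg he]
      linarith [hmono i hi e]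
  have hpart : ∀ e, ∀ j ≤ T, ∑ i ∈ range j, z i e ^ 2 ≤ L j e - b := by
    intro e j hj
    induction j with
    | zero => simp [h0]
    | succ j ih =>
      rw [sum_range_succ]
      linarith [ih (Nat.le_of_succ_le hj), hz_le j hj e]
  set good : Finset E := univ.filter fun e => ∀ s : ℝ, s * K < L T e →
    ¬ R (univ.filter fun f => L T f ≤ s) (src e) (tgt e) with hgood
  -- edges which are not good
  have hbad : ∀ e, e ∉ good → a e ≤ 1 / K * L T e := by
    intro e he
    simp only [hgood, mem_filter, mem_univ, true_and, not_forall, not_not] at he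
    obtain ⟨s, hs, hRs⟩ := he
    have hs' : s ≤ 1 / K * L T e := by
      rw [one_div, inv_mul_eq_div, le_div_iff₀ hK]
      exact hs.le
    have h0' : 0 ≤ 1 / K * L T e := mul_nonneg (by positivity) (zero_le_one.trans (hL1 e))
    have key : ∀ j ≤ T, ∑ i ∈ range j, z i e ^ 2 ≤ 1 / K * L T e := by
      intro j hj
      induction j with
      | zero => simpa using h0'
      | succ j ih =>
        rw [sum_range_succ]
        by_cases he : e ∈ F j
        · have h1 : L j e ≤ s := by
            by_contra hlt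
            refine hF j hj e he s (not_le.1 hlt) (hR _ _ _ _ (fun f hf => ?_) hRs)
            simp only [mem_filter, mem_univ, true_and] at hf ⊢
            exact (hle T le_rfl j (Nat.le_of_succ_le hj) f).trans hf
          linarith [hpart e j (Nat.le_of_succ_le hj), hz_le j hj e, hstep j hj e]
        · simp only [hz, if_neg he]
          simpa [hz] using ih (Nat.le_of_succ_le hj)
    have := key T le_rfl
    rwa [← Fin.sum_univ_eq_sum_range (fun i => z i e ^ 2) T] at this
  -- good edges
  have hgoodle : ∑ e ∈ good, a e ≤ σ * ∑ e, L T e := by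
    have h := hB (Fin T × E) (L T) (fun u v => ∑ i : Fin T, d i u v) (fun u q => X q.1 u q.2)
      (fun e q => if q.2 = e then z q.1 e / Real.sqrt (a e) else 0) good hL1
      ⟨fun u => sum_eq_zero fun i _ => (hd i i.2).self u,
        fun u v => sum_congr rfl fun i _ => (hd i i.2).symm u v,
        fun u v w => by
          rw [← sum_add_distrib]
          exact sum_le_sum fun i _ => (hd i i.2).tri u v w⟩
      (fun e => ?_) (fun u v => ?_) (fun e => ?_) (fun e f hef q => ?_)
      (fun e he => (mem_filter.1 he).2)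
    · refine le_trans (le_of_eq (sum_congr rfl fun e _ => ?_)) h
      rw [Fintype.sum_prod_type]
      have : ∀ i : Fin T, ∑ f : E, (if f = e then z i e / Real.sqrt (a e) else 0) *
          (X i (src e) f - X i (tgt e) f) = z i e ^ 2 / Real.sqrt (a e) := by
        intro i
        rw [sum_eq_single e (fun f _ hf => by rw [if_neg hf, zero_mul]) (by simp), if_pos rfl]
        by_cases he : e ∈ F i
        · simp only [hz, if_pos he]
          ring
        · simp [hz, if_neg he]
      simp only [this, ← sum_div]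
      change a e = (a e / Real.sqrt (a e)) ^ 2
      rw [Real.div_sqrt, Real.sq_sqrt (ha0 e)]
    · have : ∀ j ≤ T, ∑ i ∈ range j, d i (src e) (tgt e) ≤ L j e - b := by
        intro j hj
        induction j with
        | zero => simp [h0]
        | succ j ih =>
          rw [sum_range_succ]
          linarith [ih (Nat.le_of_succ_le hj), hdl j hj e]
      have h1 := this T le_rfl
      rw [← Fin.sum_univ_eq_sum_range (fun i => d i (src e) (tgt e)) T] at h1
      linarith
    · rw [Fintype.sum_prod_type]
      exact sum_le_sum fun i _ => hX i i.2 u v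
    · rw [Fintype.sum_prod_type]
      have : ∀ i : Fin T, ∑ f : E, (if f = e then z i e / Real.sqrt (a e) else 0) ^ 2 =
          z i e ^ 2 / a e := by
        intro i
        rw [sum_eq_single e (fun f _ hf => by rw [if_neg hf]; simp) (by simp), if_pos rfl, div_pow,
          Real.sq_sqrt (ha0 e)]
      simp only [this, ← sum_div]
      exact div_self_le_one (a e)
    · by_cases h1 : q.2 = e
      · rw [if_neg (fun h2 : q.2 = f => hef (h1.symm.trans h2)), mul_zero]
      · rw [if_neg h1, zero_mul]
  -- total value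
  have htot : T * val ≤ ∑ e, a e := by
    have h1 : ∑ e, a e = ∑ i : Fin T, ∑ e ∈ F i, (X i (src e) e - X i (tgt e) e) ^ 2 := by
      rw [ha, sum_comm]
      refine sum_congr rfl fun i _ => ?_
      simp only [hz, ite_pow, ne_eq, OfNat.ofNat_ne_zero, not_false_eq_true, zero_pow]
      rw [← sum_filter]
      simp
    rw [h1]
    calc (T : ℝ) * val = ∑ _i : Fin T, val := by simp
      _ ≤ _ := sum_le_sum fun i _ => hval i i.2
  have hsplit : ∑ e, a e = ∑ e ∈ good, a e + ∑ e ∈ goodᶜ, a e := (sum_add_sum_compl good a).symm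
  have hbadsum : ∑ e ∈ goodᶜ, a e ≤ 1 / K * ∑ e, L T e := by
    rw [mul_sum]
    refine (sum_le_sum fun e he => hbad e (mem_compl.1 he)).trans ?_
    exact sum_le_sum_of_subset_of_nonneg (subset_univ _) fun e _ _ =>
      mul_nonneg (by positivity) (zero_le_one.trans (hL1 e))
  linarith

end Crest.Agent.X37.Outer
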